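import Vale.Agent.Lib.P057.Forward

namespace Vale.Agent.Lib.P057

open Finset

/-- Translation invariance: a progression-free subset of an interval of length `N` has at most
`r_k(N)` elements. -/
lemma card_le_r (k N c : ℕ) (U : Finset ℕ) (hU : U ⊆ Finset.Ico (c + 1) (c + 1 + N))
    (hfree : ¬ HasAP k (U : Set ℕ)) : U.card ≤ r k N := by
  classical
  have hbd : BddAbove {n | ∃ S : Finset ℕ, S ⊆ Finset.Icc 1 N ∧ ¬ HasAP k (S : Set ℕ) ∧ S.card = n} := by
    refine ⟨N, ?_⟩
    rintro n ⟨S, hS, -, rfl⟩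
    simpa using Finset.card_le_card hS
  apply le_csSup hbd
  refine ⟨U.image (fun x => x - c), ?_, ?_, ?_⟩
  · intro y hy
    obtain ⟨x, hx, rfl⟩ := Finset.mem_image.1 hy
    have := Finset.mem_Ico.1 (hU hx)
    rw [Finset.mem_Icc]
    omega
  · rintro ⟨a, d, hd, h⟩
    apply hfree
    refine ⟨a + c, d, hd, fun i hi => ?_⟩
    have h1 := h i hi
    rw [Finset.mem_coe] at h1
    obtain ⟨x, hx, hxe⟩ := Finset.mem_image.1 h1
    have := Finset.mem_Ico.1 (hU hx)
    have e : a + c + i * d = x := by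
      omega
    rw [e]
    exact hx
  · apply Finset.card_image_of_injOn
    intro x hx y hy hxy
    have h1 := Finset.mem_Ico.1 (hU hx)
    have h2 := Finset.mem_Ico.1 (hU hy)
    simp only at hxy
    omega

/-- One block of length `M` starting at `c ≥ M`. -/
lemma block_sum_le (k M c : ℕ) (hM : 1 ≤ M) (hc : M ≤ c) (A : Set ℕ) (hfree : ¬ HasAP k A) :
    ∑ m ∈ Finset.Ico c (c + M), A.indicator (fun n : ℕ => (1 : ℝ) / n) m ≤ (r k M : ℝ) / M := by
  classical
  have hMR : (0 : ℝ) < M := by exact_mod_cast hM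
  set U := (Finset.Ico c (c + M)).filter (fun m => m ∈ A) with hU
  have h1 : ∑ m ∈ Finset.Ico c (c + M), A.indicator (fun n : ℕ => (1 : ℝ) / n) m
      = ∑ m ∈ U, (1 : ℝ) / m := by
    rw [hU, Finset.sum_filter]
    refine Finset.sum_congr rfl fun m _ => ?_
    by_cases hm : m ∈ A
    · rw [Set.indicator_of_mem hm, if_pos hm]
    · rw [Set.indicator_of_notMem hm, if_neg hm]
  have h2 : ∑ m ∈ U, (1 : ℝ) / m ≤ ∑ _m ∈ U, (1 : ℝ) / M := by
    apply Finset.sum_le_sum
    intro m hm
    have hm1 := (Finset.mem_Ico.1 (Finset.mem_filter.1 hm).1).1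
    apply one_div_le_one_div_of_le hMR
    exact_mod_cast le_trans hc hm1
  have h3 : U.card ≤ r k M := by
    apply card_le_r k M (c - 1) U
    · intro m hm
      have := Finset.mem_Ico.1 (Finset.mem_filter.1 hm).1
      rw [Finset.mem_Ico]
      omega
    · rintro ⟨a, d, hd, h⟩
      exact hfree ⟨a, d, hd, fun i hi => (Finset.mem_filter.1 (Finset.mem_coe.1 (h i hi))).2⟩
  rw [h1]
  refine le_trans h2 ?_
  rw [Finset.sum_const, nsmul_eq_mul, mul_one_div]
  gcongr

/-- The classical direction. -/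
theorem backward (k : ℕ) (hs : Summable (fun j : ℕ => (r k (4 ^ j) : ℝ) / 4 ^ j))
    (A : Set ℕ) (hfree : ¬ HasAP k A) : Summable (A.indicator fun n : ℕ => (1 : ℝ) / n) := by
  classical
  set f : ℕ → ℝ := A.indicator fun n : ℕ => (1 : ℝ) / n with hf
  set g : ℕ → ℝ := fun j : ℕ => (r k (4 ^ j) : ℝ) / 4 ^ j with hg
  have hf0 : ∀ n, 0 ≤ f n := fun n => Set.indicator_nonneg (fun n _ => by positivity) n
  have hg0 : ∀ j, 0 ≤ g j := fun j => by positivity
  have hzero : f 0 = 0 := by
    by_cases h : (0 : ℕ) ∈ A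
    · rw [hf, Set.indicator_of_mem h]; simp
    · rw [hf, Set.indicator_of_notMem h]
  have hblock : ∀ J : ℕ, ∑ m ∈ Finset.range (4 ^ J), f m ≤ 3 * ∑ j ∈ Finset.range J, g j := by
    intro J
    induction J with
    | zero => simp [hzero]
    | succ J ih =>
      set M := 4 ^ J with hM
      have hM1 : 1 ≤ M := Nat.one_le_pow _ _ (by norm_num)
      have e4 : 4 ^ (J + 1) = M + M + M + M := by rw [hM, pow_succ]; ring
      have b1 := block_sum_le k M M hM1 le_rfl A hfree
      have b2 := block_sum_le k M (M + M) hM1 (by omega) A hfree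
      have b3 := block_sum_le k M (M + M + M) hM1 (by omega) A hfree
      have c1 := Finset.sum_Ico_consecutive f (Nat.zero_le M) (by omega : M ≤ M + M)
      have c2 := Finset.sum_Ico_consecutive f (Nat.zero_le (M + M)) (by omega : M + M ≤ M + M + M)
      have c3 := Finset.sum_Ico_consecutive f (Nat.zero_le (M + M + M))
        (by omega : M + M + M ≤ M + M + M + M)
      rw [Finset.sum_range_succ, e4, Finset.range_eq_Ico]
      rw [Finset.range_eq_Ico] at ih
      have hgJ : g J = (r k M : ℝ) / M := by simp only [hg, hM]; push_cast; rfl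
      rw [hgJ]
      linarith
  refine summable_of_sum_range_le (c := 3 * ∑' j, g j) hf0 fun n => ?_
  have hn : n ≤ 4 ^ n := (Nat.lt_pow_self (by norm_num)).le
  calc ∑ m ∈ Finset.range n, f m ≤ ∑ m ∈ Finset.range (4 ^ n), f m :=
        Finset.sum_le_sum_of_subset_of_nonneg (Finset.range_subset_range.2 hn) (fun m _ _ => hf0 m)
    _ ≤ 3 * ∑ j ∈ Finset.range n, g j := hblock n
    _ ≤ 3 * ∑' j, g j := by
        have := hs.sum_le_tsum (Finset.range n) (fun j _ => hg0 j)
        linarith

end Vale.Agent.Lib.P057
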