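import Mathlib

/-! # P057: the reciprocal-sum conjecture forces summability of `r_k(4^j)/4^j` -/

namespace Vale.Agent.Lib.P057

open Finset

/-- `A` contains a `k`-term arithmetic progression with positive common difference. -/
def HasAP (k : ℕ) (A : Set ℕ) : Prop := ∃ a d : ℕ, 0 < d ∧ ∀ i < k, a + i * d ∈ A

/-- `r_k(N)`: the largest size of a subset of `{1, …, N}` without `k`-term progression. -/
noncomputable def r (k N : ℕ) : ℕ :=
  sSup {n | ∃ S : Finset ℕ, S ⊆ Finset.Icc 1 N ∧ ¬ HasAP k (S : Set ℕ) ∧ S.card = n}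

lemma exists_extremal (k N : ℕ) (hk : 1 ≤ k) :
    ∃ S : Finset ℕ, S ⊆ Finset.Icc 1 N ∧ ¬ HasAP k (S : Set ℕ) ∧ S.card = r k N := by
  have hne : {n | ∃ S : Finset ℕ, S ⊆ Finset.Icc 1 N ∧ ¬ HasAP k (S : Set ℕ) ∧ S.card = n}.Nonempty := by
    refine ⟨0, ∅, by simp, ?_, by simp⟩
    rintro ⟨a, d, -, h⟩
    simpa using h 0 (by omega)
  have hbd : BddAbove {n | ∃ S : Finset ℕ, S ⊆ Finset.Icc 1 N ∧ ¬ HasAP k (S : Set ℕ) ∧ S.card = n} := by
    refine ⟨N, ?_⟩
    rintro n ⟨S, hS, -, rfl⟩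
    simpa using Finset.card_le_card hS
  exact Nat.sSup_mem hne hbd

/-- The block set built from the sets `S j ⊆ [1, 4^j]`. -/
def blockSet (S : ℕ → Finset ℕ) : Set ℕ := {n | ∃ j, ∃ x ∈ S j, n = 4 ^ (j + 1) + x}

/-- A progression in the block set lies in one block. -/
lemma blockSet_noAP (k : ℕ) (hk : 3 ≤ k) (S : ℕ → Finset ℕ)
    (hS : ∀ j, S j ⊆ Finset.Icc 1 (4 ^ j)) (hfree : ∀ j, ¬ HasAP k (S j : Set ℕ)) :
    ¬ HasAP k (blockSet S) := by
  rintro ⟨a, d, hd, h⟩
  -- the last term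
  obtain ⟨J, z, hz, hzeq⟩ := h (k - 1) (by omega)
  have hzb := Finset.mem_Icc.1 (hS J hz)
  set M := 4 ^ J with hM
  have hM4 : 4 ^ (J + 1) = 4 * M := by rw [hM, pow_succ]; ring
  -- elements of the block set below `4 M` are at most `2 M`
  have hlow : ∀ n ∈ blockSet S, n ≤ 4 * M + M → (n ≤ 2 * M ∨ ∃ x ∈ S J, n = 4 * M + x) := by
    rintro n ⟨j, x, hx, rfl⟩ hn
    have hxb := Finset.mem_Icc.1 (hS j hx)
    rcases lt_trichotomy j J with hj | hj | hj
    · left
      have h1 : 4 ^ (j + 1) ≤ M := Nat.pow_le_pow_right (by norm_num) hj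
      have h2 : 4 ^ j ≤ 4 ^ (j + 1) := Nat.pow_le_pow_right (by norm_num) (by omega)
      omega
    · right
      subst hj
      exact ⟨x, hx, by rw [hM4]⟩
    · exfalso
      have h1 : 4 ^ (J + 2) ≤ 4 ^ (j + 1) := Nat.pow_le_pow_right (by norm_num) (by omega)
      have h2 : 4 ^ (J + 2) = 16 * M := by rw [hM, pow_add]; ring
      omega
  have hmono : ∀ i < k, a + i * d ≤ 4 * M + M := by
    intro i hi
    have : i * d ≤ (k - 1) * d := Nat.mul_le_mul_right d (by omega)
    omega
  -- the term before the last lies in the block `J`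
  have hy : ∃ y ∈ S J, a + (k - 2) * d = 4 * M + y := by
    rcases hlow _ (h (k - 2) (by omega)) (hmono _ (by omega)) with h1 | h1
    · exfalso
      have e1 : (k - 1) * d = (k - 2) * d + d := by
        have : k - 1 = (k - 2) + 1 := by omega
        rw [this]; ring
      have e2 : (k - 2) * d = (k - 3) * d + d := by
        have : k - 2 = (k - 3) + 1 := by omega
        rw [this]; ring
      omega
    · exact h1
  obtain ⟨y, hy, hyeq⟩ := hy
  have hyb := Finset.mem_Icc.1 (hS J hy)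
  have hdM : d < M := by
    have e1 : (k - 1) * d = (k - 2) * d + d := by
      have : k - 1 = (k - 2) + 1 := by omega
      rw [this]; ring
    omega
  -- downward induction: all terms lie in the block `J`
  have hall : ∀ n, n ≤ k - 1 → ∃ x ∈ S J, a + (k - 1 - n) * d = 4 * M + x := by
    intro n
    induction n with
    | zero => intro _; exact ⟨z, hz, by rw [Nat.sub_zero, hzeq, hM4]⟩
    | succ n ih =>
      intro hn
      obtain ⟨x, hx, hxeq⟩ := ih (by omega)
      have hxb := Finset.mem_Icc.1 (hS J hx)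
      have e1 : (k - 1 - n) * d = (k - 1 - (n + 1)) * d + d := by
        have : k - 1 - n = (k - 1 - (n + 1)) + 1 := by omega
        rw [this]; ring
      rcases hlow _ (h (k - 1 - (n + 1)) (by omega)) (hmono _ (by omega)) with h1 | h1
      · exfalso; omega
      · exact h1
  obtain ⟨x0, hx0, hx0eq⟩ := hall (k - 1) le_rfl
  rw [Nat.sub_self, Nat.zero_mul, Nat.add_zero] at hx0eq
  apply hfree J
  refine ⟨x0, d, hd, fun i hi => ?_⟩
  obtain ⟨x, hx, hxeq⟩ := hall (k - 1 - i) (by omega)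
  have e : k - 1 - (k - 1 - i) = i := by omega
  rw [e] at hxeq
  have : x0 + i * d = x := by omega
  rw [this]
  exact hx

end Vale.Agent.Lib.P057
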