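import Vale.Agent.Lib.P057.Block

namespace Vale.Agent.Lib.P057

open Finset

lemma block_index_inj {j j' x x' : ℕ} (hx : x ≤ 4 ^ j) (hx' : x' ≤ 4 ^ j')
    (h : 4 ^ (j + 1) + x = 4 ^ (j' + 1) + x') : j = j' := by
  have key : ∀ {j j' x x' : ℕ}, x ≤ 4 ^ j → 4 ^ (j + 1) + x = 4 ^ (j' + 1) + x' → ¬ j < j' := by
    intro j j' x x' hx h hlt
    have h1 : 4 ^ (j + 2) ≤ 4 ^ (j' + 1) := Nat.pow_le_pow_right (by norm_num) (by omega)
    have h2 : 4 ^ (j + 2) = 16 * 4 ^ j := by rw [pow_add]; ring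
    have h3 : 4 ^ (j + 1) = 4 * 4 ^ j := by rw [pow_succ]; ring
    have h4 : 0 < 4 ^ j := by positivity
    omega
  rcases lt_trichotomy j j' with h1 | h1 | h1
  · exact absurd h1 (key hx h)
  · exact h1
  · exact absurd h1 (key hx' h.symm)

/-- If every set of positive integers without `k`-term progression has a convergent sum of
reciprocals, then `∑_j r_k(4^j) / 4^j` converges. -/
theorem forward (k : ℕ) (hk : 3 ≤ k)
    (H : ∀ A : Set ℕ, 0 ∉ A → ¬ HasAP k A → Summable (A.indicator fun n : ℕ => (1 : ℝ) / n)) :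
    Summable (fun j : ℕ => (r k (4 ^ j) : ℝ) / 4 ^ j) := by
  classical
  choose S hS hfree hcard using fun j => exists_extremal k (4 ^ j) (by omega)
  have h0 : 0 ∉ blockSet S := by
    rintro ⟨j, x, -, h⟩
    have : 0 < 4 ^ (j + 1) := by positivity
    omega
  have hsum := H (blockSet S) h0 (blockSet_noAP k hk S hS hfree)
  set f : ℕ → ℝ := (blockSet S).indicator fun n : ℕ => (1 : ℝ) / n with hf
  have hf0 : ∀ n, 0 ≤ f n := fun n => Set.indicator_nonneg (fun n _ => by positivity) n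
  refine summable_of_sum_range_le (c := 5 * ∑' n, f n) (fun j => by positivity) fun J => ?_
  set T : Finset ℕ := (Finset.range J).biUnion (fun j => (S j).image (fun x => 4 ^ (j + 1) + x))
    with hT
  have h1 : ∑ n ∈ T, f n ≤ ∑' n, f n := hsum.sum_le_tsum T (fun n _ => hf0 n)
  have h2 : ∑ n ∈ T, f n = ∑ j ∈ Finset.range J, ∑ x ∈ S j, f (4 ^ (j + 1) + x) := by
    rw [hT, Finset.sum_biUnion]
    · refine Finset.sum_congr rfl fun j _ => ?_
      rw [Finset.sum_image]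
      intro x _ y _ hxy
      exact Nat.add_left_cancel hxy
    · intro j _ j' _ hne
      rw [Function.onFun, Finset.disjoint_left]
      intro n hn hn'
      obtain ⟨x, hx, rfl⟩ := Finset.mem_image.1 hn
      obtain ⟨x', hx', hxx⟩ := Finset.mem_image.1 hn'
      exact hne (block_index_inj (Finset.mem_Icc.1 (hS j hx)).2 (Finset.mem_Icc.1 (hS j' hx')).2
        hxx.symm)
  have h3 : ∀ j ∈ Finset.range J, (r k (4 ^ j) : ℝ) / 4 ^ j
      ≤ 5 * ∑ x ∈ S j, f (4 ^ (j + 1) + x) := by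
    intro j _
    have h4 : ∀ x ∈ S j, (1 : ℝ) / (5 * 4 ^ j) ≤ f (4 ^ (j + 1) + x) := by
      intro x hx
      have hmem : 4 ^ (j + 1) + x ∈ blockSet S := ⟨j, x, hx, rfl⟩
      rw [hf, Set.indicator_of_mem hmem]
      have hxb := (Finset.mem_Icc.1 (hS j hx)).2
      have hxR : (x : ℝ) ≤ 4 ^ j := by exact_mod_cast hxb
      apply one_div_le_one_div_of_le
      · push_cast; positivity
      · push_cast
        rw [pow_succ]
        linarith
    have h5 := Finset.sum_le_sum h4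
    rw [Finset.sum_const, hcard j, nsmul_eq_mul] at h5
    calc (r k (4 ^ j) : ℝ) / 4 ^ j = 5 * ((r k (4 ^ j) : ℝ) * (1 / (5 * 4 ^ j))) := by
          field_simp
      _ ≤ 5 * ∑ x ∈ S j, f (4 ^ (j + 1) + x) := by gcongr
  calc ∑ j ∈ Finset.range J, (r k (4 ^ j) : ℝ) / 4 ^ j
      ≤ ∑ j ∈ Finset.range J, 5 * ∑ x ∈ S j, f (4 ^ (j + 1) + x) := Finset.sum_le_sum h3
    _ = 5 * ∑ n ∈ T, f n := by rw [← Finset.mul_sum, h2]
    _ ≤ 5 * ∑' n, f n := by gcongr

end Vale.Agent.Lib.P057
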